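import Vale.Agent.Lib.P302.Inst98

/-!
# P302: a bin packing instance with `OPT - LP ≥ 2137/1728 > 59/48 > 77/64 > 6/5`

The witness has 98 items, all sizes in `(1/4, 1/2]`; it is a twice nested instance.
-/

namespace Vale.Agent.Results.P302.Gap2137over1728

open Vale.Agent.Lib.P302

theorem result : ∃ a : List ℚ, IsInstance a ∧ (2137 : ℝ) / 1728 ≤ (OPT a : ℝ) - LP a :=
  Inst98.inst98

end Vale.Agent.Results.P302.Gap2137over1728
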