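import Vale.Agent.Lib.P302.Inst140

/-!
# P302: a bin packing instance with `OPT - LP ≥ 6523/5184 = 1.2582...`

The witness has 140 items, all sizes in `(1/4, 1/2]`; it is a nested instance.
-/

namespace Vale.Agent.Results.P302.Gap6523over5184

open Vale.Agent.Lib.P302

theorem result : ∃ a : List ℚ, IsInstance a ∧ (6523 : ℝ) / 5184 ≤ (OPT a : ℝ) - LP a :=
  Inst140.inst140

end Vale.Agent.Results.P302.Gap6523over5184
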