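import Vale.Agent.Lib.P302.Inst644

/-!
# P302: a bin packing instance with `OPT - LP ≥ 972115/746496 = 1.3022...`

The witness has 644 items, all sizes in `(1/4, 1/2]`; it is a nested instance.
-/

namespace Vale.Agent.Results.P302.Gap972115over746496

open Vale.Agent.Lib.P302

theorem result : ∃ a : List ℚ, IsInstance a ∧ (972115 : ℝ) / 746496 ≤ (OPT a : ℝ) - LP a :=
  Inst644.inst644

end Vale.Agent.Results.P302.Gap972115over746496
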