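import Vale.Agent.Lib.P302.ZFinal

/-!
# P302: bin packing instances with `OPT - LP` arbitrarily close to `4/3`

For every `ε > 0` there is an instance with `OPT - LP > 4/3 - ε`.  The witnesses form an explicit
recursive family (all sizes in `(1/4, 1/2]`); the instance of level `k` has `OPT - LP ≥ 4/3 - f/6`
with `f ≤ 5 (3/4)^k`.
-/

namespace Vale.Agent.Results.P302.GapFourThirds

open Vale.Agent.Lib.P302

theorem result : ∀ ε : ℝ, 0 < ε →
    ∃ a : List ℚ, IsInstance a ∧ 4 / 3 - ε < (OPT a : ℝ) - LP a :=
  gap_four_thirds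

end Vale.Agent.Results.P302.GapFourThirds
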